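import Vale.Agent.Lib.P012_helper11.CBadCore

/-!
# P012c, module N3: few numerators have a bad modulus for the small block
-/

namespace Vale.Agent.Lib.P012c

open Finset
open Vale.Agent.Lib.P012b

/-- sum of `x ^ card` over the nonempty subsets. -/
theorem bad1_sum_powerset (S : Finset ℕ) (x : ℝ) :
    ∑ Q ∈ S.powerset.erase ∅, x ^ Q.card = (1 + x) ^ S.card - 1 := by
  have h1 : ∑ Q ∈ S.powerset, x ^ Q.card = (1 + x) ^ S.card := by
    have := Finset.sum_pow_mul_eq_add_pow x 1 S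
    simp only [one_pow, mul_one] at this
    rw [this, add_comm]
  have h2 : ∑ Q ∈ S.powerset.erase ∅, x ^ Q.card + x ^ (∅ : Finset ℕ).card
      = ∑ Q ∈ S.powerset, x ^ Q.card :=
    sum_erase_add _ _ (empty_mem_powerset S)
  rw [h1] at h2
  simp only [card_empty, pow_zero] at h2
  linarith

/-- a subset of the prime factors of `g ∈ [1, X]` consists of primes `≤ X` and its product divides `g`. -/
theorem bad_subset_primeFactors (X g : ℕ) (hg : g ∈ Icc 1 X) (Q : Finset ℕ)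
    (hQ : Q ⊆ g.primeFactors) :
    Q ⊆ (Icc 1 X).filter Nat.Prime ∧ (∏ q ∈ Q, q) ∣ g := by
  rw [mem_Icc] at hg
  constructor
  · intro q hq
    have h1 := hQ hq
    have hp : q.Prime := Nat.prime_of_mem_primeFactors h1
    have hd : q ∣ g := Nat.dvd_of_mem_primeFactors h1
    rw [mem_filter, mem_Icc]
    exact ⟨⟨hp.one_lt.le, (Nat.le_of_dvd (by omega) hd).trans hg.2⟩, hp⟩
  · exact (prod_dvd_prod_of_subset _ _ _ hQ).trans (Nat.prod_primeFactors_dvd g)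

theorem bad1_count (A : Finset ℕ) (w y₀ y X : ℕ) (hA : ∀ a ∈ A, a < 2 ^ w) (hy : y₀ ^ 4 ≤ y)
    (hw : 2 ^ 16 * w ≤ y₀) (T : Finset ℕ) (hT : T ⊆ Icc 1 X)
    (h : ∀ g ∈ T, ∃ Q ⊆ g.primeFactors, Q.Nonempty ∧ (∀ q ∈ Q, y < q) ∧ ¬ NB Q A) :
    T.card * 2 ^ 15 ≤ X := by
  classical
  rcases Nat.eq_zero_or_pos w with hw0 | hwpos
  · -- no collisions at all
    have hT0 : T = ∅ := by
      by_contra hne
      obtain ⟨g, hg⟩ := nonempty_iff_ne_empty.2 hne
      obtain ⟨Q, -, -, -, hNB⟩ := h g hg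
      apply hNB
      have hc : coll Q A = 0 := by
        unfold coll
        rw [card_eq_zero, filter_eq_empty_iff]
        intro p hp
        exfalso
        rw [mem_offDiag] at hp
        have h1 := hA _ hp.1
        have h2 := hA _ hp.2.1
        rw [hw0] at h1 h2
        exact hp.2.2 (by omega)
      unfold NB
      rw [hc]
      simp
    rw [hT0]; simp
  have hy0 : 0 < y₀ := by
    have : 0 < 2 ^ 16 * w := by positivity
    omega
  have hy0r : (0 : ℝ) < y₀ := by exact_mod_cast hy0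
  set U := (Icc 1 X).filter Nat.Prime with hU
  have hUp : ∀ q ∈ U, q.Prime := fun q hq => (mem_filter.1 hq).2
  set QQ := U.powerset.filter
    (fun Q : Finset ℕ => Q.Nonempty ∧ (∀ q ∈ Q, y < q) ∧ ¬ NB Q A) with hQQ
  have hwr : (2 : ℝ) ^ 16 * w ≤ y₀ := by exact_mod_cast hw
  have key : (T.card : ℝ) ≤ X * (2 * w * (1 / (y₀ : ℝ))) := by
    refine badcore_count A X T hT QQ (fun Q => (1 / (y₀ : ℝ)) ^ Q.card) _ (by positivity) ?_ ?_ ?_ ?_
    · intro g hg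
      obtain ⟨Q, hQ, hne, hQy, hNB⟩ := h g hg
      obtain ⟨h1, h2⟩ := bad_subset_primeFactors X g (hT hg) Q hQ
      refine ⟨Q, ?_, h2⟩
      rw [hQQ, mem_filter, mem_powerset]
      exact ⟨h1, hne, hQy, hNB⟩
    · intro Q _
      positivity
    · intro Q hQ
      rw [hQQ, mem_filter, mem_powerset] at hQ
      obtain ⟨hQU, -, hQy, hNB⟩ := hQ
      unfold NB at hNB
      rw [not_le] at hNB
      have hprod : y₀ ^ (4 * Q.card) ≤ ∏ q ∈ Q, q := by
        calc y₀ ^ (4 * Q.card) = (y₀ ^ 4) ^ Q.card := by rw [pow_mul]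
          _ ≤ y ^ Q.card := Nat.pow_le_pow_left hy _
          _ = ∏ _q ∈ Q, y := by rw [prod_const]
          _ ≤ ∏ q ∈ Q, q := prod_le_prod' (fun q hq => (hQy q hq).le)
      have hPpos : 0 < ∏ q ∈ Q, q := prod_pos (fun q hq => (hUp q (hQU hq)).pos)
      have h4 : (A.card ^ 2 * y₀ ^ Q.card) ^ 4 < (coll Q A * ∏ q ∈ Q, q) ^ 4 := by
        calc (A.card ^ 2 * y₀ ^ Q.card) ^ 4 = A.card ^ 8 * y₀ ^ (4 * Q.card) := by ring
          _ ≤ A.card ^ 8 * ∏ q ∈ Q, q := Nat.mul_le_mul_left _ hprod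
          _ < (coll Q A ^ 4 * (∏ q ∈ Q, q) ^ 3) * ∏ q ∈ Q, q :=
              Nat.mul_lt_mul_of_pos_right hNB hPpos
          _ = (coll Q A * ∏ q ∈ Q, q) ^ 4 := by ring
      have h5 : A.card ^ 2 * y₀ ^ Q.card < coll Q A * ∏ q ∈ Q, q :=
        lt_of_pow_lt_pow_left₀ 4 (Nat.zero_le _) h4
      have h6 : (A.card : ℝ) ^ 2 * (y₀ : ℝ) ^ Q.card < coll Q A * ((∏ q ∈ Q, q : ℕ) : ℝ) := by
        exact_mod_cast h5
      have hyq : (0 : ℝ) < (y₀ : ℝ) ^ Q.card := by positivity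
      have h7 : (coll Q A : ℝ) * (1 / (y₀ : ℝ)) ^ Q.card * ((∏ q ∈ Q, q : ℕ) : ℝ)
          = (coll Q A * ((∏ q ∈ Q, q : ℕ) : ℝ)) / (y₀ : ℝ) ^ Q.card := by
        rw [one_div, inv_pow]; field_simp
      rw [h7, lt_div_iff₀ hyq]
      exact h6
    · intro p hp
      rw [mem_offDiag] at hp
      set S := U.filter (fun q : ℕ => (q : ℤ) ∣ (p.1 : ℤ) - (p.2 : ℤ)) with hS
      have hScard : S.card ≤ w :=
        badcore_card_primes U hUp w p.1 p.2 (hA _ hp.1) (hA _ hp.2.1) hp.2.2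
      have hsub : QQ.filter (fun Q : Finset ℕ => ∀ q ∈ Q, (q : ℤ) ∣ (p.1 : ℤ) - (p.2 : ℤ))
          ⊆ S.powerset.erase ∅ := by
        intro Q hQ
        rw [mem_filter, hQQ, mem_filter, mem_powerset] at hQ
        obtain ⟨⟨hQU, hne, -, -⟩, hdiv⟩ := hQ
        rw [mem_erase, mem_powerset]
        refine ⟨hne.ne_empty, fun q hq => ?_⟩
        rw [hS, mem_filter]
        exact ⟨hQU hq, hdiv q hq⟩
      have hx : (0 : ℝ) ≤ 1 / (y₀ : ℝ) := by positivity
      calc ∑ Q ∈ QQ.filter (fun Q : Finset ℕ => ∀ q ∈ Q, (q : ℤ) ∣ (p.1 : ℤ) - (p.2 : ℤ)),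
            (1 / (y₀ : ℝ)) ^ Q.card
          ≤ ∑ Q ∈ S.powerset.erase ∅, (1 / (y₀ : ℝ)) ^ Q.card :=
            sum_le_sum_of_subset_of_nonneg hsub (fun Q _ _ => by positivity)
        _ = (1 + 1 / (y₀ : ℝ)) ^ S.card - 1 := bad1_sum_powerset S _
        _ ≤ (1 + 1 / (y₀ : ℝ)) ^ w - 1 := by
            have : (1 + 1 / (y₀ : ℝ)) ^ S.card ≤ (1 + 1 / (y₀ : ℝ)) ^ w :=
              pow_le_pow_right₀ (by linarith) hScard
            linarith
        _ ≤ 2 * w * (1 / (y₀ : ℝ)) := by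
            have hk : 2 * (w : ℝ) * (1 / (y₀ : ℝ)) ≤ 1 := by
              rw [mul_one_div, div_le_one hy0r]
              have : (0 : ℝ) ≤ w := Nat.cast_nonneg _
              linarith
            have := one_add_pow_le (1 / (y₀ : ℝ)) hx w hk
            linarith
  have hfin : (T.card : ℝ) * 2 ^ 15 ≤ X := by
    have hX : (0 : ℝ) ≤ X := Nat.cast_nonneg _
    have h1 : 2 * (w : ℝ) * (1 / (y₀ : ℝ)) * 2 ^ 15 ≤ 1 := by
      rw [mul_one_div, div_mul_eq_mul_div, div_le_one hy0r]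
      linarith
    calc (T.card : ℝ) * 2 ^ 15 ≤ X * (2 * w * (1 / (y₀ : ℝ))) * 2 ^ 15 :=
          mul_le_mul_of_nonneg_right key (by positivity)
      _ = X * (2 * (w : ℝ) * (1 / (y₀ : ℝ)) * 2 ^ 15) := by ring
      _ ≤ X * 1 := mul_le_mul_of_nonneg_left h1 hX
      _ = X := mul_one _
  exact_mod_cast hfin

end Vale.Agent.Lib.P012c
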