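import Vale.Agent.Lib.P012_helper11.CBad1

/-!
# P012c, module N4: few numerators have a bad large modulus for the large block
-/

namespace Vale.Agent.Lib.P012c

open Finset
open Vale.Agent.Lib.P012b

/-- the number of subsets of size at most `K` of a set with at most `w` elements. -/
theorem bad2_card_small_subsets (S : Finset ℕ) (w K : ℕ) (hS : S.card ≤ w) :
    (S.powerset.filter (fun Q : Finset ℕ => Q.card ≤ K)).card ≤ (w + 1) ^ K := by
  have h1 : S.powerset.filter (fun Q : Finset ℕ => Q.card ≤ K)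
      ⊆ (range (K + 1)).biUnion (fun j => S.powersetCard j) := by
    intro Q hQ
    rw [mem_filter, mem_powerset] at hQ
    rw [mem_biUnion]
    exact ⟨Q.card, mem_range.2 (by omega), mem_powersetCard.2 ⟨hQ.1, rfl⟩⟩
  calc (S.powerset.filter (fun Q : Finset ℕ => Q.card ≤ K)).card
      ≤ ((range (K + 1)).biUnion (fun j => S.powersetCard j)).card := card_le_card h1
    _ ≤ ∑ j ∈ range (K + 1), (S.powersetCard j).card := card_biUnion_le
    _ = ∑ j ∈ range (K + 1), S.card.choose j := by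
        refine sum_congr rfl (fun j _ => ?_)
        rw [card_powersetCard]
    _ ≤ ∑ j ∈ range (K + 1), w ^ j * 1 ^ (K - j) * K.choose j := by
        refine sum_le_sum (fun j hj => ?_)
        have hj' : j ≤ K := by have := mem_range.1 hj; omega
        have h2 : S.card.choose j ≤ w ^ j :=
          (Nat.choose_le_choose j hS).trans (Nat.choose_le_pow _ _)
        have h3 : 1 ≤ K.choose j := Nat.choose_pos hj'
        calc S.card.choose j ≤ w ^ j := h2
          _ = w ^ j * 1 ^ (K - j) * 1 := by simp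
          _ ≤ w ^ j * 1 ^ (K - j) * K.choose j := Nat.mul_le_mul_left _ h3
    _ = (w + 1) ^ K := (add_pow w 1 K).symm

theorem bad2_count (A : Finset ℕ) (w K θ X : ℕ) (hA : ∀ a ∈ A, a < 2 ^ w)
    (hθ : (w + 1) ^ K * 2 ^ 15 ≤ θ) (T : Finset ℕ) (hT : T ⊆ Icc 1 X)
    (h : ∀ g ∈ T, g.primeFactors.card ≤ K ∧ ∃ Q ⊆ g.primeFactors,
      θ ^ 4 < ∏ q ∈ Q, q ∧ ¬ NB Q A) :
    T.card * 2 ^ 15 ≤ X := by
  classical
  have hθ0 : 0 < θ := by
    have : 0 < (w + 1) ^ K * 2 ^ 15 := by positivity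
    omega
  have hθr : (0 : ℝ) < θ := by exact_mod_cast hθ0
  set U := (Icc 1 X).filter Nat.Prime with hU
  have hUp : ∀ q ∈ U, q.Prime := fun q hq => (mem_filter.1 hq).2
  set QQ := U.powerset.filter
    (fun Q : Finset ℕ => Q.card ≤ K ∧ θ ^ 4 < ∏ q ∈ Q, q ∧ ¬ NB Q A) with hQQ
  have hθr' : ((w : ℝ) + 1) ^ K * 2 ^ 15 ≤ θ := by exact_mod_cast hθ
  have key : (T.card : ℝ) ≤ X * (((w : ℝ) + 1) ^ K * (1 / (θ : ℝ))) := by
    refine badcore_count A X T hT QQ (fun _ => 1 / (θ : ℝ)) _ (by positivity) ?_ ?_ ?_ ?_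
    · intro g hg
      obtain ⟨hK, Q, hQ, hQθ, hNB⟩ := h g hg
      obtain ⟨h1, h2⟩ := bad_subset_primeFactors X g (hT hg) Q hQ
      refine ⟨Q, ?_, h2⟩
      rw [hQQ, mem_filter, mem_powerset]
      exact ⟨h1, (card_le_card hQ).trans hK, hQθ, hNB⟩
    · intro Q _
      positivity
    · intro Q hQ
      rw [hQQ, mem_filter, mem_powerset] at hQ
      obtain ⟨hQU, -, hQθ, hNB⟩ := hQ
      unfold NB at hNB
      rw [not_le] at hNB
      have hPpos : 0 < ∏ q ∈ Q, q := prod_pos (fun q hq => (hUp q (hQU hq)).pos)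
      have h4 : (A.card ^ 2 * θ) ^ 4 < (coll Q A * ∏ q ∈ Q, q) ^ 4 := by
        calc (A.card ^ 2 * θ) ^ 4 = A.card ^ 8 * θ ^ 4 := by ring
          _ ≤ A.card ^ 8 * ∏ q ∈ Q, q := Nat.mul_le_mul_left _ hQθ.le
          _ < (coll Q A ^ 4 * (∏ q ∈ Q, q) ^ 3) * ∏ q ∈ Q, q :=
              Nat.mul_lt_mul_of_pos_right hNB hPpos
          _ = (coll Q A * ∏ q ∈ Q, q) ^ 4 := by ring
      have h5 : A.card ^ 2 * θ < coll Q A * ∏ q ∈ Q, q :=
        lt_of_pow_lt_pow_left₀ 4 (Nat.zero_le _) h4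
      have h6 : (A.card : ℝ) ^ 2 * (θ : ℝ) < coll Q A * ((∏ q ∈ Q, q : ℕ) : ℝ) := by
        exact_mod_cast h5
      have h7 : (coll Q A : ℝ) * (1 / (θ : ℝ)) * ((∏ q ∈ Q, q : ℕ) : ℝ)
          = (coll Q A * ((∏ q ∈ Q, q : ℕ) : ℝ)) / (θ : ℝ) := by
        field_simp
      rw [h7, lt_div_iff₀ hθr]
      exact h6
    · intro p hp
      rw [mem_offDiag] at hp
      set S := U.filter (fun q : ℕ => (q : ℤ) ∣ (p.1 : ℤ) - (p.2 : ℤ)) with hS
      have hScard : S.card ≤ w :=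
        badcore_card_primes U hUp w p.1 p.2 (hA _ hp.1) (hA _ hp.2.1) hp.2.2
      have hsub : QQ.filter (fun Q : Finset ℕ => ∀ q ∈ Q, (q : ℤ) ∣ (p.1 : ℤ) - (p.2 : ℤ))
          ⊆ S.powerset.filter (fun Q : Finset ℕ => Q.card ≤ K) := by
        intro Q hQ
        rw [mem_filter, hQQ, mem_filter, mem_powerset] at hQ
        obtain ⟨⟨hQU, hK, -, -⟩, hdiv⟩ := hQ
        rw [mem_filter, mem_powerset]
        refine ⟨fun q hq => ?_, hK⟩
        rw [hS, mem_filter]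
        exact ⟨hQU hq, hdiv q hq⟩
      have hcard : ((QQ.filter
          (fun Q : Finset ℕ => ∀ q ∈ Q, (q : ℤ) ∣ (p.1 : ℤ) - (p.2 : ℤ))).card : ℝ)
          ≤ ((w : ℝ) + 1) ^ K := by
        have := (card_le_card hsub).trans (bad2_card_small_subsets S w K hScard)
        exact_mod_cast this
      rw [sum_const, nsmul_eq_mul]
      exact mul_le_mul_of_nonneg_right hcard (by positivity)
  have hfin : (T.card : ℝ) * 2 ^ 15 ≤ X := by
    have hX : (0 : ℝ) ≤ X := Nat.cast_nonneg _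
    have h1 : ((w : ℝ) + 1) ^ K * (1 / (θ : ℝ)) * 2 ^ 15 ≤ 1 := by
      rw [mul_one_div, div_mul_eq_mul_div, div_le_one hθr]
      exact hθr'
    calc (T.card : ℝ) * 2 ^ 15 ≤ X * (((w : ℝ) + 1) ^ K * (1 / (θ : ℝ))) * 2 ^ 15 :=
          mul_le_mul_of_nonneg_right key (by positivity)
      _ = X * (((w : ℝ) + 1) ^ K * (1 / (θ : ℝ)) * 2 ^ 15) := by ring
      _ ≤ X * 1 := mul_le_mul_of_nonneg_left h1 hX
      _ = X := mul_one _
  exact_mod_cast hfin

end Vale.Agent.Lib.P012c
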