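import Vale.Agent.Lib.P012_helper5.Defs

/-!
# P012c, modules N3 / N4: the common double counting
-/

namespace Vale.Agent.Lib.P012c

open Finset
open Vale.Agent.Lib.P012b

/-- union bound over the moduli. -/
theorem badcore_card_le (X : ℕ) (T : Finset ℕ) (hT : T ⊆ Icc 1 X) (QQ : Finset (Finset ℕ))
    (h : ∀ g ∈ T, ∃ Q ∈ QQ, (∏ q ∈ Q, q) ∣ g) :
    (T.card : ℝ) ≤ ∑ Q ∈ QQ, (X : ℝ) / ((∏ q ∈ Q, q : ℕ) : ℝ) := by
  have h1 : T ⊆ QQ.biUnion (fun Q => (Ioc 0 X).filter (fun g => (∏ q ∈ Q, q) ∣ g)) := by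
    intro g hg
    obtain ⟨Q, hQ, hd⟩ := h g hg
    have := hT hg
    rw [mem_Icc] at this
    rw [mem_biUnion]
    refine ⟨Q, hQ, ?_⟩
    rw [mem_filter, mem_Ioc]
    exact ⟨⟨by omega, this.2⟩, hd⟩
  have h2 : T.card ≤ ∑ Q ∈ QQ, X / (∏ q ∈ Q, q) := by
    calc T.card ≤ (QQ.biUnion (fun Q => (Ioc 0 X).filter (fun g => (∏ q ∈ Q, q) ∣ g))).card :=
          card_le_card h1
      _ ≤ ∑ Q ∈ QQ, ((Ioc 0 X).filter (fun g => (∏ q ∈ Q, q) ∣ g)).card := card_biUnion_le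
      _ = ∑ Q ∈ QQ, X / (∏ q ∈ Q, q) := by
          refine sum_congr rfl (fun Q _ => ?_)
          exact Nat.Ioc_filter_dvd_card_eq_div X _
  calc (T.card : ℝ) ≤ ((∑ Q ∈ QQ, X / (∏ q ∈ Q, q) : ℕ) : ℝ) := by exact_mod_cast h2
    _ = ∑ Q ∈ QQ, ((X / (∏ q ∈ Q, q) : ℕ) : ℝ) := by push_cast; rfl
    _ ≤ ∑ Q ∈ QQ, (X : ℝ) / ((∏ q ∈ Q, q : ℕ) : ℝ) := by
        refine sum_le_sum (fun Q _ => ?_)
        exact Nat.cast_div_le

/-- `coll` as a sum of indicators. -/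
theorem badcore_coll_eq (Q A : Finset ℕ) :
    (coll Q A : ℝ) = ∑ p ∈ A.offDiag,
      (if ∀ q ∈ Q, (q : ℤ) ∣ (p.1 : ℤ) - (p.2 : ℤ) then (1 : ℝ) else 0) := by
  unfold coll
  rw [card_filter]
  push_cast
  rfl

/-- the abstract double counting. -/
theorem badcore_count (A : Finset ℕ) (X : ℕ) (T : Finset ℕ) (hT : T ⊆ Icc 1 X)
    (QQ : Finset (Finset ℕ)) (c : Finset ℕ → ℝ) (ε : ℝ) (hε : 0 ≤ ε)
    (h : ∀ g ∈ T, ∃ Q ∈ QQ, (∏ q ∈ Q, q) ∣ g)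
    (hc : ∀ Q ∈ QQ, 0 ≤ c Q)
    (h1 : ∀ Q ∈ QQ, (A.card : ℝ) ^ 2 < coll Q A * c Q * ((∏ q ∈ Q, q : ℕ) : ℝ))
    (h2 : ∀ p ∈ A.offDiag,
      ∑ Q ∈ QQ.filter (fun Q : Finset ℕ => ∀ q ∈ Q, (q : ℤ) ∣ (p.1 : ℤ) - (p.2 : ℤ)), c Q ≤ ε) :
    (T.card : ℝ) ≤ X * ε := by
  have h0 := badcore_card_le X T hT QQ h
  rcases Nat.eq_zero_or_pos A.card with hA0 | hApos
  · -- then `QQ` is empty
    have hA : A = ∅ := card_eq_zero.1 hA0
    have hQQ : QQ = ∅ := by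
      by_contra hne
      obtain ⟨Q, hQ⟩ := nonempty_iff_ne_empty.2 hne
      have := h1 Q hQ
      rw [hA] at this
      simp [coll] at this
    rw [hQQ] at h0
    simp only [sum_empty] at h0
    exact h0.trans (by positivity)
  have hAr : (0 : ℝ) < (A.card : ℝ) ^ 2 := by positivity
  have hX : (0 : ℝ) ≤ X := Nat.cast_nonneg _
  have step1 : ∀ Q ∈ QQ, (X : ℝ) / ((∏ q ∈ Q, q : ℕ) : ℝ)
      ≤ (X : ℝ) / (A.card : ℝ) ^ 2 * (coll Q A * c Q) := by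
    intro Q hQ
    have hlt := h1 Q hQ
    have hcc : 0 ≤ (coll Q A : ℝ) * c Q := mul_nonneg (Nat.cast_nonneg _) (hc Q hQ)
    have hP : (0 : ℝ) < ((∏ q ∈ Q, q : ℕ) : ℝ) := by
      by_contra hneg
      have hle : ((∏ q ∈ Q, q : ℕ) : ℝ) ≤ 0 := not_lt.1 hneg
      have : (coll Q A : ℝ) * c Q * ((∏ q ∈ Q, q : ℕ) : ℝ) ≤ 0 :=
        mul_nonpos_of_nonneg_of_nonpos hcc hle
      linarith
    rw [div_le_iff₀ hP]
    have : (X : ℝ) / (A.card : ℝ) ^ 2 * (coll Q A * c Q) * ((∏ q ∈ Q, q : ℕ) : ℝ)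
        = (X : ℝ) * ((coll Q A * c Q * ((∏ q ∈ Q, q : ℕ) : ℝ)) / (A.card : ℝ) ^ 2) := by
      field_simp
    rw [this]
    have h3 : 1 ≤ (coll Q A * c Q * ((∏ q ∈ Q, q : ℕ) : ℝ)) / (A.card : ℝ) ^ 2 := by
      rw [le_div_iff₀ hAr]; linarith
    nlinarith
  have step2 : ∑ Q ∈ QQ, ((coll Q A : ℝ) * c Q) ≤ (A.card : ℝ) ^ 2 * ε := by
    calc ∑ Q ∈ QQ, ((coll Q A : ℝ) * c Q)
        = ∑ Q ∈ QQ, ∑ p ∈ A.offDiag,
            (if ∀ q ∈ Q, (q : ℤ) ∣ (p.1 : ℤ) - (p.2 : ℤ) then c Q else 0) := by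
          refine sum_congr rfl (fun Q _ => ?_)
          rw [badcore_coll_eq, sum_mul]
          refine sum_congr rfl (fun p _ => ?_)
          split_ifs <;> simp
      _ = ∑ p ∈ A.offDiag, ∑ Q ∈ QQ,
            (if ∀ q ∈ Q, (q : ℤ) ∣ (p.1 : ℤ) - (p.2 : ℤ) then c Q else 0) := sum_comm
      _ = ∑ p ∈ A.offDiag,
            ∑ Q ∈ QQ.filter (fun Q : Finset ℕ => ∀ q ∈ Q, (q : ℤ) ∣ (p.1 : ℤ) - (p.2 : ℤ)), c Q := by
          refine sum_congr rfl (fun p _ => ?_)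
          rw [sum_filter]
      _ ≤ ∑ _p ∈ A.offDiag, ε := sum_le_sum h2
      _ = (A.offDiag.card : ℝ) * ε := by rw [sum_const, nsmul_eq_mul]
      _ ≤ (A.card : ℝ) ^ 2 * ε := by
          refine mul_le_mul_of_nonneg_right ?_ hε
          have : A.offDiag.card ≤ A.card ^ 2 := by
            rw [offDiag_card, sq]; exact Nat.sub_le _ _
          exact_mod_cast this
  calc (T.card : ℝ) ≤ ∑ Q ∈ QQ, (X : ℝ) / ((∏ q ∈ Q, q : ℕ) : ℝ) := h0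
    _ ≤ ∑ Q ∈ QQ, (X : ℝ) / (A.card : ℝ) ^ 2 * (coll Q A * c Q) := sum_le_sum step1
    _ = (X : ℝ) / (A.card : ℝ) ^ 2 * ∑ Q ∈ QQ, ((coll Q A : ℝ) * c Q) := by rw [mul_sum]
    _ ≤ (X : ℝ) / (A.card : ℝ) ^ 2 * ((A.card : ℝ) ^ 2 * ε) :=
        mul_le_mul_of_nonneg_left step2 (by positivity)
    _ = X * ε := by field_simp

/-- the primes of `U` dividing a nonzero difference of two numbers below `2 ^ w` are fewer than `w`. -/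
theorem badcore_card_primes (U : Finset ℕ) (hU : ∀ q ∈ U, q.Prime) (w a a' : ℕ)
    (ha : a < 2 ^ w) (ha' : a' < 2 ^ w) (hne : a ≠ a') :
    (U.filter (fun q : ℕ => (q : ℤ) ∣ (a : ℤ) - (a' : ℤ))).card ≤ w := by
  set S := U.filter (fun q : ℕ => (q : ℤ) ∣ (a : ℤ) - (a' : ℤ)) with hS
  have hSp : ∀ q ∈ S, q.Prime := fun q hq => hU q (mem_filter.1 hq).1
  have hdvd : (∏ q ∈ S, q) ∣ ((a : ℤ) - (a' : ℤ)).natAbs := by
    refine Finset.prod_primes_dvd _ (fun q hq => (hSp q hq).prime) (fun q hq => ?_)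
    have := (mem_filter.1 hq).2
    exact Int.natCast_dvd.1 this
  have hpos : 0 < ((a : ℤ) - (a' : ℤ)).natAbs := by
    rw [Int.natAbs_pos]
    intro h0
    apply hne
    have : (a : ℤ) = a' := by linarith
    exact_mod_cast this
  have hle : (∏ q ∈ S, q) ≤ ((a : ℤ) - (a' : ℤ)).natAbs := Nat.le_of_dvd hpos hdvd
  have hlt : ((a : ℤ) - (a' : ℤ)).natAbs < 2 ^ w := by
    have h1 : ((a : ℤ) - (a' : ℤ)).natAbs ≤ max a a' := by omega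
    have h2 : max a a' < 2 ^ w := max_lt ha ha'
    omega
  have hpow : 2 ^ S.card ≤ ∏ q ∈ S, q := by
    rw [← prod_const]
    exact prod_le_prod' (fun q hq => (hSp q hq).two_le)
  have : 2 ^ S.card < 2 ^ w := by omega
  exact ((Nat.pow_lt_pow_iff_right (by norm_num)).1 this).le

end Vale.Agent.Lib.P012c
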