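import Vale.Agent.Lib.P012_helper13.LLMain

/-!
# P012c: lowering the threshold from `exp (exp 700)` to `exp (exp 13)`
-/

namespace Vale.Agent.Lib.P012c

open Finset

theorem log_700_le : Real.log 700 ≤ 6.6 := by
  rw [Real.log_le_iff_le_exp (by norm_num)]
  have h1 : (Real.exp 6.6) ^ 5 = (Real.exp 1) ^ 33 := by
    rw [← Real.exp_nat_mul, ← Real.exp_nat_mul]
    norm_num
  have h2 : (2.7182818283 : ℝ) ^ 33 ≤ (Real.exp 1) ^ 33 :=
    pow_le_pow_left₀ (by norm_num) Real.exp_one_gt_d9.le 33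
  have h3 : (700 : ℝ) ^ 5 ≤ (2.7182818283 : ℝ) ^ 33 := by norm_num
  have h4 : (700 : ℝ) ^ 5 ≤ (Real.exp 6.6) ^ 5 := by rw [h1]; exact h3.trans h2
  exact le_of_pow_le_pow_left₀ (by norm_num) (Real.exp_pos _).le h4

theorem main13_of
    (hmain : ∀ b : ℕ, Real.exp (Real.exp 700) ≤ (b : ℝ) → ∀ a : ℕ, 1 ≤ a → a < b →
      ∃ S : Finset ℕ, (∀ n ∈ S, 2 ≤ n) ∧
        (S.card : ℝ) ≤ 50000 * Real.log (Real.log b) ∧ ∑ n ∈ S, (1 / n : ℚ) = a / b) :
    ∀ b : ℕ, Real.exp (Real.exp 13) ≤ (b : ℝ) → ∀ a : ℕ, 1 ≤ a → a < b →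
      ∃ S : Finset ℕ, (∀ n ∈ S, 2 ≤ n) ∧
        (S.card : ℝ) ≤ 132000 * Real.log (Real.log b) ∧ ∑ n ∈ S, (1 / n : ℚ) = a / b := by
  intro b hb a ha hab
  have hbpos : (0 : ℝ) < b := lt_of_lt_of_le (Real.exp_pos _) hb
  have hL1 : Real.exp 13 ≤ Real.log b := by
    rw [Real.le_log_iff_exp_le hbpos]; exact hb
  have hLpos : 0 < Real.log b := lt_of_lt_of_le (Real.exp_pos _) hL1
  have hLL1 : 13 ≤ Real.log (Real.log b) := by
    rw [Real.le_log_iff_exp_le hLpos]; exact hL1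
  have hLLpos : 0 < Real.log (Real.log b) := by linarith
  by_cases hbig : Real.exp (Real.exp 700) ≤ (b : ℝ)
  · obtain ⟨S, h1, h2, h3⟩ := hmain b hbig a ha hab
    exact ⟨S, h1, by nlinarith, h3⟩
  · rw [not_le] at hbig
    obtain ⟨S, h1, h2, h3⟩ := Vale.Agent.Lib.P012b.main_explicit b hb a ha hab
    refine ⟨S, h1, h2.trans ?_, h3⟩
    have hL2 : Real.log b < Real.exp 700 := by
      rw [Real.log_lt_iff_lt_exp hbpos]; exact hbig
    have hLL2 : Real.log (Real.log b) < 700 := by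
      rw [Real.log_lt_iff_lt_exp hLpos]; exact hL2
    have hLLL : Real.log (Real.log (Real.log b)) ≤ 6.6 :=
      (Real.log_le_log hLLpos hLL2.le).trans log_700_le
    calc 20000 * Real.log (Real.log b) * Real.log (Real.log (Real.log b))
        ≤ 20000 * Real.log (Real.log b) * 6.6 :=
          mul_le_mul_of_nonneg_left hLLL (by positivity)
      _ = 132000 * Real.log (Real.log b) := by ring

end Vale.Agent.Lib.P012c
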